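import Vale.Agent.P043.R3.Rigid.Cells

/-!
Helper for P043 R3: tilings by the notched cube have one lattice coset as translation set.
-/

namespace Vale.Agent.P043.R3

open MeasureTheory Set

variable {n : ℕ}

/-- The sides of the notch box. -/
noncomputable def side (c k : Fin n) : ℝ := if k = c then 0 else 1 / 2

lemma notch_eq (c : Fin n) :
    notch c = univ.pi fun k => Ico (side c k) (side c k + eta n) := by
  ext y
  simp only [notch, mem_ofPred_eq, mem_pi, mem_univ, true_implies, side]
  constructor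
  · intro h k
    rcases eq_or_ne k c with rfl | hk
    · simpa using h.1
    · simpa [hk] using h.2 k hk
  · intro h
    refine ⟨by simpa using h c, fun k hk => ?_⟩
    simpa [hk] using h k

lemma pi_pos' {s : Fin n → Set ℝ} (h : ∀ k, 0 < volume (s k)) : 0 < volume (univ.pi s) := by
  rw [volume_pi_pi]
  exact pos_iff_ne_zero.2 (Finset.prod_ne_zero_iff.2 fun k _ => (h k).ne')

lemma Ico_pos {a b : ℝ} (h : a < b) : 0 < volume (Ico a b) := by
  rw [Real.volume_Ico, ENNReal.ofReal_pos]; linarith

section Cells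

variable {S : Set (Fin n → ℝ)} (h : ∀ᵐ y : Fin n → ℝ, ∃! r, r ∈ S ∧ y - r ∈ piece n)
include h

lemma exists_good {T : Set (Fin n → ℝ)} (hT : 0 < volume T) :
    ∃ y ∈ T, ∃! r, r ∈ S ∧ y - r ∈ piece n := by
  by_contra hc
  push Not at hc
  exact hT.ne' (measure_mono_null (fun y hy => hc y hy) (ae_iff.1 h))

/-- Two distinct cubes do not overlap. -/
lemma cubes_sep (hn : 2 ≤ n) {r r' : Fin n → ℝ} (hr : r ∈ S) (hr' : r' ∈ S)
    (hd : ∀ k, |r k - r' k| < 1) : r = r' := by
  have hη := eta_pos n
  have hη' := eta_le n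
  set L := fun k => max (r k) (r' k) with hL
  set U := fun k => min (r k) (r' k) + 1 with hU
  have hLU : ∀ k, L k < U k := fun k => by
    have := abs_lt.1 (hd k)
    rcases le_total (r k) (r' k) with h1 | h1 <;> simp [hL, hU, h1] <;> linarith
  have hcube : ∀ y : Fin n → ℝ, (∀ k, y k ∈ Ico (L k) (U k)) → y - r ∈ cube n ∧ y - r' ∈ cube n :=
    fun y hy => by
    have h1 : ∀ k, r k ≤ y k ∧ r' k ≤ y k ∧ y k < r k + 1 ∧ y k < r' k + 1 := fun k =>
      ⟨(le_max_left _ _).trans (hy k).1, (le_max_right _ _).trans (hy k).1,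
        (hy k).2.trans_le (by simp [hU]), (hy k).2.trans_le (by simp [hU])⟩
    exact ⟨fun k => ⟨by simpa using (h1 k).1, by simpa using (by linarith [h1 k] : y k - r k < 1)⟩,
      fun k => ⟨by simpa using (h1 k).2.1, by simpa using (by linarith [h1 k] : y k - r' k < 1)⟩⟩
  obtain ⟨T, hT, hTb, hTn⟩ : ∃ T : Set (Fin n → ℝ), 0 < volume T ∧
      (∀ y ∈ T, ∀ k, y k ∈ Ico (L k) (U k)) ∧
      ∀ y ∈ T, ∀ c, y - r ∉ notch c ∧ y - r' ∉ notch c := by
    by_cases hbig : ∃ k₀, 4 * eta n < U k₀ - L k₀
    · obtain ⟨k₀, hk₀⟩ := hbig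
      set X : Set ℝ := Ico (r k₀) (r k₀ + eta n) ∪ Ico (r k₀ + 1 / 2) (r k₀ + 1 / 2 + eta n) ∪
        (Ico (r' k₀) (r' k₀ + eta n) ∪ Ico (r' k₀ + 1 / 2) (r' k₀ + 1 / 2 + eta n)) with hX
      have hXv : volume X ≤ ENNReal.ofReal (4 * eta n) := by
        refine (measure_union_le _ _).trans ((add_le_add (measure_union_le _ _)
          (measure_union_le _ _)).trans ?_)
        simp only [Real.volume_Ico, add_sub_cancel_left]
        rw [← ENNReal.ofReal_add hη.le hη.le, ← ENNReal.ofReal_add (by linarith) (by linarith)]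
        exact ENNReal.ofReal_le_ofReal (by linarith)
      refine ⟨univ.pi (Function.update (fun k => Ico (L k) (U k)) k₀ (Ico (L k₀) (U k₀) \ X)),
        pi_pos' fun k => ?_, fun y hy k => ?_, fun y hy c => ?_⟩
      · rcases eq_or_ne k k₀ with rfl | hk
        · rw [Function.update_self]
          refine (tsub_pos_iff_lt.2 ?_).trans_le le_measure_sdiff
          refine hXv.trans_lt ?_
          rw [Real.volume_Ico]
          exact (ENNReal.ofReal_lt_ofReal_iff (by linarith)).2 hk₀
        · rw [Function.update_of_ne hk]; exact Ico_pos (hLU k)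
      · have := hy k (mem_univ k)
        rcases eq_or_ne k k₀ with rfl | hk
        · rw [Function.update_self] at this; exact this.1
        · rwa [Function.update_of_ne hk] at this
      · have hk := hy k₀ (mem_univ k₀)
        rw [Function.update_self] at hk
        obtain ⟨-, hk'⟩ := hk
        rw [hX] at hk'
        simp only [mem_union, mem_Ico, not_or, not_and, not_lt] at hk'
        obtain ⟨⟨h1, h2⟩, h3, h4⟩ := hk'
        constructor <;> intro hc <;> rcases eq_or_ne k₀ c with rfl | hne
        · linarith [hc.1.1, hc.1.2, h1 (by linarith [show (y - r) k₀ = y k₀ - r k₀ from rfl, hc.1.1]),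
            show (y - r) k₀ = y k₀ - r k₀ from rfl]
        · linarith [(hc.2 k₀ hne).2, h2 (by linarith [show (y - r) k₀ = y k₀ - r k₀ from rfl,
            (hc.2 k₀ hne).1]), show (y - r) k₀ = y k₀ - r k₀ from rfl]
        · linarith [hc.1.1, hc.1.2, h3 (by linarith [show (y - r') k₀ = y k₀ - r' k₀ from rfl,
            hc.1.1]), show (y - r') k₀ = y k₀ - r' k₀ from rfl]
        · linarith [(hc.2 k₀ hne).2, h4 (by linarith [show (y - r') k₀ = y k₀ - r' k₀ from rfl,
            (hc.2 k₀ hne).1]), show (y - r') k₀ = y k₀ - r' k₀ from rfl]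
    · push Not at hbig
      refine ⟨univ.pi fun k => Ico (L k) (U k), pi_pos' fun k => Ico_pos (hLU k),
        fun y hy k => hy k (mem_univ k), fun y hy c => ?_⟩
      have : Nontrivial (Fin n) := Fin.nontrivial_iff_two_le.2 hn
      obtain ⟨k, hk⟩ := exists_ne c
      have hyk := hy k (mem_univ k)
      have hs := hbig k
      have e1 : (y - r) k = y k - r k := rfl
      have e2 : (y - r') k = y k - r' k := rfl
      simp only [hL, hU] at hyk hs
      constructor <;> intro hc <;> have h5 := hc.2 k hk <;>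
        rcases le_total (r k) (r' k) with h1 | h1 <;> simp [h1] at hyk hs <;>
        linarith [h5.1, h5.2, hyk.1, hyk.2]
  obtain ⟨y, hy, hu⟩ := exists_good h hT
  obtain ⟨hc, hc'⟩ := hcube y (hTb y hy)
  exact hu.unique
    ⟨hr, Or.inl ⟨hc, fun hm => (mem_iUnion.1 hm).elim fun c hc => (hTn y hy c).1 hc⟩⟩
    ⟨hr', Or.inl ⟨hc', fun hm => (mem_iUnion.1 hm).elim fun c hc => (hTn y hy c).2 hc⟩⟩

/-- The bump of the neighbour below fills each notch. -/
lemma notch_filled (hn : 2 ≤ n) {t : Fin n → ℝ} (ht : t ∈ S) (c : Fin n) :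
    t - Pi.single c 1 ∈ S := by
  have hη := eta_pos n
  have hη' := eta_le n
  have hpos : ∀ a b : Fin n → ℝ, (∀ k, a k < b k) →
      0 < volume (univ.pi fun k => Ico (t k + a k) (t k + b k)) :=
    fun a b hab => pi_pos' fun k => Ico_pos (by linarith [hab k])
  have facts : ∀ y : Fin n → ℝ, y - t ∈ notch c → ∀ s ∈ S, y - s ∈ piece n →
      s c - t c ≤ -1 ∧ -1 - eta n < s c - t c ∧ (∀ k, k ≠ c → |s k - t k| < eta n) ∧
      y - s - Pi.single c 1 ∈ notch c := by
    intro y hy s hs hys
    have hnot : ¬ ∀ k, |s k - t k| < 1 := fun hall => by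
      have e := cubes_sep h hn hs ht hall
      subst e
      rcases hys with ⟨-, h2⟩ | ⟨d, hd⟩
      · exact h2 (mem_iUnion.2 ⟨c, hy⟩)
      · have := (notch_subset_cube d hd d).1
        have := (notch_subset_cube c hy d).2
        simp only [Pi.sub_apply, Pi.single_eq_same] at *
        linarith
    rcases hys with ⟨h1, -⟩ | ⟨d, hd⟩
    · refine absurd (fun k => ?_) hnot
      have a := h1 k
      have b := notch_subset_cube c hy k
      simp only [Pi.sub_apply, mem_Ico] at a b
      exact abs_lt.2 ⟨by linarith, by linarith⟩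
    · rcases eq_or_ne d c with rfl | hdc
      · have hc1 := hd.1
        have hc2 := hy.1
        simp only [Pi.sub_apply, Pi.single_eq_same, mem_Ico] at hc1 hc2
        have hoth : ∀ k, k ≠ d → |s k - t k| < eta n := fun k hk => by
          have a := hd.2 k hk
          have b := hy.2 k hk
          simp only [Pi.sub_apply, Pi.single_eq_of_ne hk, sub_zero, mem_Ico] at a b
          exact abs_lt.2 ⟨by linarith, by linarith⟩
        refine ⟨le_of_not_gt fun hlt => hnot fun k => ?_, by linarith, hoth, hd⟩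
        rcases eq_or_ne k d with rfl | hk
        · exact abs_lt.2 ⟨by linarith, by linarith⟩
        · linarith [hoth k hk]
      · refine absurd (fun k => ?_) hnot
        rcases eq_or_ne k d with rfl | hk
        · have a := hd.1
          have b := hy.2 k hdc
          simp only [Pi.sub_apply, Pi.single_eq_same, mem_Ico] at a b
          exact abs_lt.2 ⟨by linarith, by linarith⟩
        · have a := hd.2 k hk
          simp only [Pi.sub_apply, Pi.single_eq_of_ne hk, sub_zero, mem_Ico] at a
          rcases eq_or_ne k c with rfl | hkc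
          · have b := hy.1
            simp only [Pi.sub_apply, mem_Ico] at b
            exact abs_lt.2 ⟨by linarith, by linarith⟩
          · have b := hy.2 k hkc
            simp only [Pi.sub_apply, mem_Ico] at b
            exact abs_lt.2 ⟨by linarith, by linarith⟩
  have hmem : ∀ y : Fin n → ℝ, y - t ∈ notch c ↔
      ∀ k, y k ∈ Ico (t k + side c k) (t k + (side c k + eta n)) := fun y => by
    simp only [notch_eq, mem_pi, mem_univ, true_implies, Pi.sub_apply, mem_Ico, sub_lt_iff_lt_add',
      le_sub_iff_add_le']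
  obtain ⟨y, hy, hu⟩ := exists_good h (hpos (side c) (fun k => side c k + eta n) fun k => by linarith)
  obtain ⟨s, ⟨hs, hys⟩, -⟩ := hu
  obtain ⟨hs1, hs2, hs3, -⟩ := facts y ((hmem y).2 fun k => hy k (mem_univ k)) s hs hys
  have huniq : ∀ y : Fin n → ℝ, y - t ∈ notch c → ∀ s' ∈ S, y - s' ∈ piece n → s' = s := by
    intro y hy s' hs' hys'
    obtain ⟨h1, h2, h3, -⟩ := facts y hy s' hs' hys'
    refine cubes_sep h hn hs' hs fun k => ?_
    rcases eq_or_ne k c with rfl | hk
    · exact abs_lt.2 ⟨by linarith, by linarith⟩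
    · have := abs_lt.1 (h3 k hk)
      have := abs_lt.1 (hs3 k hk)
      exact abs_lt.2 ⟨by linarith, by linarith⟩
  suffices e : s = t - Pi.single c 1 by exact e ▸ hs
  funext k₀
  by_contra hne
  set δ := s k₀ - (t - Pi.single (M := fun _ : Fin n => ℝ) c 1 : Fin n → ℝ) k₀ with hδ
  have hδ0 : δ ≠ 0 := sub_ne_zero.2 hne
  have hm : 0 < min |δ| (eta n) := lt_min (abs_pos.2 hδ0) hη
  set a := Function.update (side c) k₀
    (if 0 < δ then side c k₀ else side c k₀ + eta n - min |δ| (eta n)) with ha
  set b := Function.update (fun k => side c k + eta n) k₀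
    (if 0 < δ then side c k₀ + min |δ| (eta n) else side c k₀ + eta n) with hb
  have hab : ∀ k, a k < b k ∧ side c k ≤ a k ∧ b k ≤ side c k + eta n := fun k => by
    rcases eq_or_ne k k₀ with rfl | hk
    · simp only [ha, hb, Function.update_self]
      split_ifs <;> refine ⟨?_, ?_, ?_⟩ <;> linarith [min_le_right |δ| (eta n)]
    · simp only [ha, hb, Function.update_of_ne hk]
      exact ⟨by linarith, le_rfl, le_rfl⟩
  obtain ⟨w, hw, hwu⟩ := exists_good h (hpos a b fun k => (hab k).1)
  obtain ⟨s', ⟨hs', hws⟩, -⟩ := hwu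
  have hwn : w - t ∈ notch c := (hmem w).2 fun k => ⟨by linarith [(hw k (mem_univ k)).1, (hab k).2.1],
    by linarith [(hw k (mem_univ k)).2, (hab k).2.2]⟩
  obtain rfl := huniq w hwn s' hs' hws
  have hb' := (facts w hwn s' hs' hws).2.2.2
  rw [notch_eq, mem_univ_pi] at hb'
  have h1 := hb' k₀
  have h2 := hw k₀ (mem_univ k₀)
  simp only [ha, hb, Function.update_self, mem_Ico] at h2
  simp only [Pi.sub_apply, mem_Ico] at h1
  have e : (t - Pi.single (M := fun _ : Fin n => ℝ) c 1 : Fin n → ℝ) k₀ =
      t k₀ - Pi.single (M := fun _ : Fin n => ℝ) c 1 k₀ := rfl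
  by_cases hp : 0 < δ
  · simp only [hp, if_true, abs_of_pos hp] at h2
    linarith [min_le_left δ (eta n), h1.1]
  · simp only [hp, if_false, abs_of_neg (lt_of_le_of_ne (not_lt.1 hp) hδ0)] at h2
    linarith [min_le_left (-δ) (eta n), h1.2]

/-- Tilings by the notched cube: the translations form one coset of the lattice. -/
theorem lattice_of_cells (hn : 2 ≤ n) :
    ∃ o, S = range fun z : Fin n → ℤ => o + fun k => (z k : ℝ) := by
  obtain ⟨y, -, hu⟩ := exists_good (T := univ.pi fun _ : Fin n => Ico (0 : ℝ) 1) h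
    (pi_pos' fun _ => Ico_pos one_pos)
  obtain ⟨o, ⟨ho, -⟩, -⟩ := hu
  have down : ∀ (m : Fin n → ℕ), ∀ t ∈ S, t - (fun k => (m k : ℝ)) ∈ S := by
    intro m
    induction hm : ∑ k, m k using Nat.strong_induction_on generalizing m with
    | _ N ih =>
      intro t ht
      by_cases hz : ∀ k, m k = 0
      · have : (fun k => (m k : ℝ)) = 0 := funext fun k => by simp [hz k]
        rwa [this, sub_zero]
      · push Not at hz
        obtain ⟨c, hc⟩ := hz
        set m' := Function.update m c (m c - 1) with hm'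
        have hlt : ∑ k, m' k < N := by
          rw [← hm]
          refine Finset.sum_lt_sum (fun k _ => ?_) ⟨c, Finset.mem_univ _, ?_⟩
          · rcases eq_or_ne k c with rfl | hk <;> simp [*]
          · simp [hm']; omega
        have := notch_filled h hn (ih _ hlt m' rfl t ht) c
        convert this using 1
        funext k
        rcases eq_or_ne k c with rfl | hk
        · simp [hm', Nat.cast_sub (show 1 ≤ m k by omega)]
          ring
        · simp [hm', hk]
  have hsub : ∀ t ∈ S, ∃ z : Fin n → ℤ, t = o + fun k => (z k : ℝ) := by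
    intro t ht
    refine ⟨fun k => ⌊t k - o k⌋, ?_⟩
    have h1 := down (fun k => (⌊t k - o k⌋).toNat) t ht
    have h2 := down (fun k => (-⌊t k - o k⌋).toNat) o ho
    have hcast : ∀ z : ℤ, ((z.toNat : ℝ) - ((-z).toNat : ℝ)) = z := fun z => by
      exact_mod_cast Int.toNat_sub_toNat_neg z
    have e := cubes_sep h hn h1 h2 fun k => by
      simp only [Pi.sub_apply]
      rw [abs_lt]
      constructor <;> linarith [hcast ⌊t k - o k⌋, Int.floor_le (t k - o k),
        Int.lt_floor_add_one (t k - o k)]
    funext k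
    have e' := congrFun e k
    simp only [Pi.sub_apply] at e'
    simp only [Pi.add_apply]
    linarith [hcast ⌊t k - o k⌋]
  refine ⟨o, Set.ext fun t => ⟨fun ht => ?_, ?_⟩⟩
  · obtain ⟨z, hz⟩ := hsub t ht
    exact ⟨z, hz.symm⟩
  · rintro ⟨z, rfl⟩
    set p : Fin n → ℝ := o + fun k => (z k : ℝ) with hp
    obtain ⟨y, hy, hu⟩ := exists_good h (T := univ.pi fun k => Ico (p k + 1 / 10) (p k + 1 / 5))
      (pi_pos' fun k => Ico_pos (by linarith))
    obtain ⟨t, ⟨ht, hyt⟩, -⟩ := hu
    obtain ⟨z', hz'⟩ := hsub t ht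
    have hpc : (y - p) ∈ piece n := by
      refine Or.inl ⟨fun k => ?_, fun hm => ?_⟩
      · have := hy k (mem_univ k)
        simp only [mem_Ico] at this
        simp only [Pi.sub_apply, mem_Ico]
        constructor <;> linarith
      · obtain ⟨c, hc⟩ := mem_iUnion.1 hm
        have := hc.1.2
        have := (hy c (mem_univ c)).1
        simp only [Pi.sub_apply] at *
        linarith [eta_le n]
    have hconv : ∀ z : Fin n → ℤ, y - o - (fun k => (z k : ℝ)) =
        y - (o + fun k => (z k : ℝ)) := fun z => sub_sub _ _ _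
    have e := (existsUnique_cell (y - o)).unique (y₁ := z) (y₂ := z')
      (by rw [hconv]; exact hpc) (by rw [hconv, ← hz']; exact hyt)
    rw [hz', ← e] at ht
    exact ht

end Cells

end Vale.Agent.P043.R3
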