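import Vale.Agent.P043.R3.Defs

/-!
Helper for P043 R3: the notched cube is an exact fundamental domain of the integer lattice, hence
a solution of the row system gives a tiling.
-/

namespace Vale.Agent.P043.R3

open MeasureTheory Set

variable {n : ℕ}

lemma eta_pos (n : ℕ) : 0 < eta n := by
  unfold eta; positivity

lemma eta_le (n : ℕ) : eta n ≤ 1 / 20 := by
  unfold eta
  apply one_div_le_one_div_of_le (by norm_num)
  have : (0 : ℝ) ≤ n := Nat.cast_nonneg n
  linarith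

lemma notch_subset_cube (c : Fin n) : notch c ⊆ cube n := fun y hy k => by
  have h := eta_le n
  have h' := eta_pos n
  rcases eq_or_ne k c with rfl | hk
  · exact ⟨hy.1.1, by linarith [hy.1.2]⟩
  · exact ⟨by linarith [(hy.2 k hk).1], by linarith [(hy.2 k hk).2]⟩

lemma notch_unique {c d : Fin n} {y : Fin n → ℝ} (hc : y ∈ notch c) (hd : y ∈ notch d) : c = d := by
  by_contra h
  linarith [(hd.2 c h).1, hc.1.2, eta_le n]

lemma sub_intCast_eq (y : Fin n → ℝ) (r : Fin n → ℤ) (k : Fin n) :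
    (y - fun i => (r i : ℝ)) k = y k - r k := rfl

lemma cube_unique {y : Fin n → ℝ} {r r' : Fin n → ℤ} (h : (y - fun k => (r k : ℝ)) ∈ cube n)
    (h' : (y - fun k => (r' k : ℝ)) ∈ cube n) : r = r' := by
  funext k
  have e : ∀ s : Fin n → ℤ, (y - fun i => (s i : ℝ)) ∈ cube n → ⌊y k⌋ = s k := fun s hs =>
    Int.floor_eq_iff.2 ⟨by linarith [(hs k).1, sub_intCast_eq y s k],
      by linarith [(hs k).2, sub_intCast_eq y s k]⟩
  rw [← e r h, ← e r' h']

lemma sub_single_cast (y : Fin n → ℝ) (r : Fin n → ℤ) (c : Fin n) :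
    (y - fun k => (((r - Pi.single c (1 : ℤ) : Fin n → ℤ) k : ℤ) : ℝ)) = (y - fun k => (r k : ℝ)) + Pi.single c 1 := by
  funext k
  rcases eq_or_ne k c with rfl | hk
  · simp; ring
  · simp [hk]

lemma bump_cell {y : Fin n → ℝ} {r : Fin n → ℤ} {c : Fin n}
    (h : ((y - fun k => (r k : ℝ)) - Pi.single c 1) ∈ notch c) :
    (y - fun k => (((r + Pi.single c (1 : ℤ) : Fin n → ℤ) k : ℤ) : ℝ)) ∈ notch c := by
  convert h using 1
  funext k
  rcases eq_or_ne k c with rfl | hk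
  · simp; ring
  · simp [hk]

/-- The notched cube is an exact fundamental domain of the lattice. -/
theorem existsUnique_cell (y : Fin n → ℝ) :
    ∃! r : Fin n → ℤ, (y - fun k => (r k : ℝ)) ∈ piece n := by
  set r₀ : Fin n → ℤ := fun k => ⌊y k⌋ with hr₀
  have h₀ : (y - fun k => (r₀ k : ℝ)) ∈ cube n := fun k => by
    rw [sub_intCast_eq]
    exact ⟨by linarith [Int.floor_le (y k)], by linarith [Int.lt_floor_add_one (y k)]⟩
  by_cases hn : ∃ c, (y - fun k => (r₀ k : ℝ)) ∈ notch c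
  · obtain ⟨c, hc⟩ := hn
    refine ⟨r₀ - Pi.single c (1 : ℤ), Or.inr ⟨c, ?_⟩, fun r hr => ?_⟩
    · rw [sub_single_cast, add_sub_cancel_right]
      exact hc
    rcases hr with ⟨hr, hn'⟩ | ⟨d, hd⟩
    · rw [cube_unique hr h₀] at hn'
      exact absurd (mem_iUnion.2 ⟨c, hc⟩) hn'
    · have h1 := cube_unique (notch_subset_cube d (bump_cell hd)) h₀
      rw [← h1] at hc
      rw [notch_unique hc (bump_cell hd), ← h1, add_sub_cancel_right]
  · refine ⟨r₀, Or.inl ⟨h₀, fun h => hn (mem_iUnion.1 h)⟩, fun r hr => ?_⟩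
    rcases hr with ⟨hr, -⟩ | ⟨d, hd⟩
    · exact cube_unique hr h₀
    · exact absurd ⟨d, cube_unique (notch_subset_cube d (bump_cell hd)) h₀ ▸ bump_cell hd⟩ hn

lemma measurableSet_notch (c : Fin n) : MeasurableSet (notch c) := by
  have : notch c = (fun y : Fin n → ℝ => y c) ⁻¹' Ico 0 (eta n) ∩
      ⋂ k : Fin n, ⋂ (_ : k ≠ c), (fun y : Fin n → ℝ => y k) ⁻¹' Ico (1 / 2) (1 / 2 + eta n) := by
    ext y; simp [notch]
  rw [this]
  exact (measurable_pi_apply c measurableSet_Ico).inter (MeasurableSet.iInter fun k =>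
    MeasurableSet.iInter fun _ => measurable_pi_apply k measurableSet_Ico)

lemma measurableSet_piece (n : ℕ) : MeasurableSet (piece n) := by
  have hc : cube n = Set.univ.pi fun _ : Fin n => Ico (0 : ℝ) 1 := by
    ext y; simp [cube, Set.mem_pi]
  have hb : bumps n = ⋃ c, (fun y : Fin n → ℝ => y - Pi.single c 1) ⁻¹' notch c := by
    ext y; simp [bumps]
  refine ((hc ▸ MeasurableSet.univ_pi fun _ => measurableSet_Ico).diff
    (MeasurableSet.iUnion measurableSet_notch)).union ?_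
  rw [hb]
  exact MeasurableSet.iUnion fun c => (measurable_id.sub_const _) (measurableSet_notch c)

lemma measurableSet_prism (n : ℕ) : MeasurableSet (prism n) :=
  ((measurableSet_piece n).preimage measurable_snd).inter
    (measurableSet_Ico.preimage (measurable_fst.sub (Finset.measurable_sum _ fun k _ =>
      ((measurable_pi_apply k).comp measurable_snd).pow_const 2)))

lemma piece_bound {y : Fin n → ℝ} (h : y ∈ piece n) (k : Fin n) : |y k| ≤ 3 := by
  rcases h with ⟨h, -⟩ | ⟨c, hc⟩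
  · exact abs_le.2 ⟨by linarith [(h k).1], by linarith [(h k).2]⟩
  · have h' := notch_subset_cube c hc k
    rcases eq_or_ne k c with rfl | hk
    · simp only [Pi.sub_apply, Pi.single_eq_same] at h'
      exact abs_le.2 ⟨by linarith [h'.1], by linarith [h'.2]⟩
    · simp only [Pi.sub_apply, Pi.single_eq_of_ne hk, sub_zero] at h'
      exact abs_le.2 ⟨by linarith [h'.1], by linarith [h'.2]⟩

lemma prism_bound {z : ℝ × (Fin n → ℝ)} (h : z ∈ prism n) :
    z ∈ Metric.closedBall (0 : ℝ × (Fin n → ℝ)) (9 * n + 3) := by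
  have hk := piece_bound h.1
  have h2 : ∀ k, z.2 k ^ 2 ≤ 9 := fun k => by nlinarith [abs_le.1 (hk k)]
  have hs : ∑ k, z.2 k ^ 2 ≤ 9 * n := by
    have := Finset.sum_le_sum (s := Finset.univ) fun k _ => h2 k
    simpa [mul_comm] using this
  have hs0 : 0 ≤ ∑ k, z.2 k ^ 2 := Finset.sum_nonneg fun k _ => sq_nonneg _
  rw [mem_closedBall_zero_iff, Prod.norm_def, max_le_iff,
    pi_norm_le_iff_of_nonneg (by positivity), Real.norm_eq_abs]
  refine ⟨abs_le.2 ⟨by linarith [h.2.1], by linarith [h.2.2]⟩, fun k => ?_⟩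
  have hn : (0 : ℝ) ≤ 9 * n := by positivity
  rw [Real.norm_eq_abs]
  linarith [hk k]

lemma body_eq (F : Finset (ℝ × (Fin n → ℤ))) :
    body F = ⋃ p ∈ F, (fun z => z - pt p) ⁻¹' prism n := by
  ext z; simp [body]

lemma measurableSet_body (F : Finset (ℝ × (Fin n → ℤ))) : MeasurableSet (body F) := by
  rw [body_eq]
  exact Finset.measurableSet_biUnion _ fun p _ =>
    (measurable_id.sub_const _) (measurableSet_prism n)

theorem body_facts {n : ℕ} {F : Finset (ℝ × (Fin n → ℤ))} (hF : F.Nonempty) :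
    MeasurableSet (body F) ∧ Bornology.IsBounded (body F) ∧ 0 < volume (body F) := by
  refine ⟨measurableSet_body F, ?_, ?_⟩
  · rw [body_eq]
    refine (Bornology.isBounded_biUnion F.finite_toSet).2 fun p _ => ?_
    refine (Metric.isBounded_closedBall (x := pt p) (r := 9 * n + 3)).subset fun z hz => ?_
    rw [mem_closedBall_iff_norm]
    exact mem_closedBall_zero_iff.1 (prism_bound hz)
  · obtain ⟨p, hp⟩ := hF
    set U : Set (ℝ × (Fin n → ℝ)) :=
      {z | (∀ k, z.2 k - p.2 k ∈ Ioo (1 / 10 : ℝ) (1 / 5)) ∧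
        z.1 - p.1 - ∑ k, (z.2 k - p.2 k) ^ 2 ∈ Ioo (0 : ℝ) 1} with hU
    have ho : IsOpen U := by
      have e : U = (⋂ k, (fun z : ℝ × (Fin n → ℝ) => z.2 k - p.2 k) ⁻¹' Ioo (1 / 10 : ℝ) (1 / 5)) ∩
          (fun z : ℝ × (Fin n → ℝ) => z.1 - p.1 - ∑ k, (z.2 k - p.2 k) ^ 2) ⁻¹' Ioo 0 1 := by
        ext z; simp [hU]
      rw [e]
      exact (isOpen_iInter_of_finite fun k => isOpen_Ioo.preimage (by fun_prop)).inter
        (isOpen_Ioo.preimage (by fun_prop))
    have hne : U.Nonempty := by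
      refine ⟨(p.1 + ∑ _k : Fin n, (3 / 20 : ℝ) ^ 2 + 1 / 2, fun k => p.2 k + 3 / 20),
        fun k => ?_, ?_⟩
      · constructor <;> simp <;> norm_num
      · simp only [add_sub_cancel_left]
        constructor <;> linarith
    refine (ho.measure_pos _ hne).trans_le (measure_mono fun z hz => ⟨p, hp, Or.inl ⟨fun k => ?_,
      fun hu => ?_⟩, Ioo_subset_Ico_self hz.2⟩)
    · exact ⟨by linarith [(hz.1 k).1, show (z - pt p).2 k = z.2 k - p.2 k from rfl],
        by linarith [(hz.1 k).2, show (z - pt p).2 k = z.2 k - p.2 k from rfl]⟩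
    · obtain ⟨c, hc⟩ := mem_iUnion.1 hu
      linarith [hc.1.2, (hz.1 c).1, eta_le n, show (z - pt p).2 c = z.2 c - p.2 c from rfl]

/-- The rows of the prisms through a point. -/
lemma row_eq {z : ℝ × (Fin n → ℝ)} {q : (ℝ × (Fin n → ℤ)) × (ℝ × (Fin n → ℤ))}
    (h : z - pt q.1 - pt q.2 ∈ prism n) : (z.2 - fun k => ((q.1.2 + q.2.2) k : ℝ)) ∈ piece n := by
  convert h.1 using 1
  funext k
  simp [pt]; ring

lemma existsUnique_prism {F : Finset (ℝ × (Fin n → ℤ))} {A : Set (ℝ × (Fin n → ℤ))}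
    (h : Sys F A) (z : ℝ × (Fin n → ℝ)) :
    ∃! q : (ℝ × (Fin n → ℤ)) × (ℝ × (Fin n → ℤ)),
      q.1 ∈ A ∧ q.2 ∈ F ∧ z - pt q.1 - pt q.2 ∈ prism n := by
  obtain ⟨r, hr, hru⟩ := existsUnique_cell z.2
  obtain ⟨ψ, hψ, hz⟩ := h r
  set g := z.1 - ψ - ∑ k, (z.2 k - r k) ^ 2 with hg
  obtain ⟨q, ⟨hqA, hqF, hq2, hq1⟩, hqu⟩ := hz ⌊g⌋
  have key : ∀ q' : (ℝ × (Fin n → ℤ)) × (ℝ × (Fin n → ℤ)), q'.1.2 + q'.2.2 = r →
      (z - pt q'.1 - pt q'.2).2 = (z.2 - fun k => (r k : ℝ)) ∧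
      (z - pt q'.1 - pt q'.2).1 - ∑ k, (z - pt q'.1 - pt q'.2).2 k ^ 2 =
        g + ψ - (q'.1.1 + q'.2.1) := fun q' e => by
    have e' : (z - pt q'.1 - pt q'.2).2 = (z.2 - fun k => (r k : ℝ)) := by
      funext k
      simp [pt, ← e]; ring
    refine ⟨e', ?_⟩
    rw [e', hg]
    simp [pt]; ring
  refine ⟨q, ⟨hqA, hqF, ?_⟩, fun q' hq' => ?_⟩
  · obtain ⟨e2, e1⟩ := key q hq2
    refine ⟨e2 ▸ hr, ?_⟩
    rw [e1, hq1]
    constructor <;> linarith [Int.floor_le g, Int.lt_floor_add_one g]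
  · obtain ⟨hA, hF, hp⟩ := hq'
    have e := hru _ (row_eq hp)
    obtain ⟨-, e1⟩ := key q' e
    obtain ⟨w, hw⟩ := hψ _ hA _ hF e
    have h1 := hp.2
    rw [e1, hw] at h1
    have : ⌊g⌋ = w := Int.floor_eq_iff.2 ⟨by linarith [h1.1], by linarith [h1.2]⟩
    exact hqu q' ⟨hA, hF, e, by rw [hw, this]⟩

theorem tiling_of_sys {n : ℕ} {F : Finset (ℝ × (Fin n → ℤ))}
    (_hinj : Set.InjOn Prod.snd (F : Set (ℝ × (Fin n → ℤ)))) {A : Set (ℝ × (Fin n → ℤ))}
    (h : Sys F A) : Tiling (body F) (pt '' A) := by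
  refine ⟨Filter.Eventually.of_forall fun z => ?_, ?_⟩
  · obtain ⟨q, ⟨hA, hF, hp⟩, -⟩ := existsUnique_prism h z
    exact ⟨pt q.1, mem_image_of_mem pt hA, q.2, hF, hp⟩
  · rintro _ ⟨a, ha, rfl⟩ _ ⟨b, hb, rfl⟩ hne
    have : {z | z - pt a ∈ body F} ∩ {z | z - pt b ∈ body F} = ∅ := by
      refine eq_empty_of_forall_notMem fun z => ?_
      rintro ⟨⟨p, hp, h1⟩, ⟨p', hp', h2⟩⟩
      have e := (existsUnique_prism h z).unique (y₁ := (a, p)) (y₂ := (b, p')) ⟨ha, hp, h1⟩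
        ⟨hb, hp', h2⟩
      exact hne (congrArg pt (Prod.ext_iff.1 e).1)
    rw [this, measure_empty]

end Vale.Agent.P043.R3
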