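import Vale.Agent.P043.R3.Defs

/-!
Helper for P043 R3: unit intervals cutting the line form one coset of the integers, and level sets
of a non-zero linear form are null.
-/

namespace Vale.Agent.P043.R3

open MeasureTheory Set

/-- If almost every real lies in exactly one interval `[c i, c i + 1)`, the `c i` are one coset. -/
theorem exists_coset {ι : Type*} (c : ι → ℝ)
    (h : ∀ᵐ x : ℝ, ∃! i, x ∈ Ico (c i) (c i + 1)) :
    ∃ ψ : ℝ, (∀ i, ∃ z : ℤ, c i = ψ + z) ∧ ∀ z : ℤ, ∃! i, c i = ψ + z := by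
  have hex : ∀ a b : ℝ, a < b → ∃ x ∈ Ioo a b, ∃! i, x ∈ Ico (c i) (c i + 1) := by
    intro a b hab
    by_contra hc
    push Not at hc
    have h0 : volume (Ioo a b) = 0 := measure_mono_null (fun x hx => hc x hx) (ae_iff.1 h)
    rw [Real.volume_Ioo, ENNReal.ofReal_eq_zero] at h0
    linarith
  have hsep : ∀ i j, |c i - c j| < 1 → i = j := by
    intro i j hij
    have hij' := abs_lt.1 hij
    obtain ⟨x, hx, hu⟩ := hex (max (c i) (c j)) (min (c i) (c j) + 1) (by
      rcases le_total (c i) (c j) with h1 | h1 <;> simp [h1] <;> linarith)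
    exact hu.unique ⟨(le_max_left _ _).trans hx.1.le, hx.2.trans_le (by simp)⟩
      ⟨(le_max_right _ _).trans hx.1.le, hx.2.trans_le (by simp)⟩
  have hup : ∀ i, ∃ j, c j = c i + 1 := by
    intro i
    have hk : ∀ ε : ℝ, 0 < ε → ∃ j, c i + 1 ≤ c j ∧ c j < c i + 1 + ε := by
      intro ε hε
      obtain ⟨x, hx, hu⟩ := hex (c i + 1) (c i + 1 + ε) (by linarith)
      obtain ⟨j, hj, -⟩ := hu
      refine ⟨j, ?_, by linarith [hj.1, hx.2]⟩
      by_contra hlt
      have : i = j := hsep i j (abs_lt.2 ⟨by linarith, by linarith [hj.2, hx.1]⟩)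
      linarith [hj.2, hx.1, congrArg c this]
    obtain ⟨j, h1, h2⟩ := hk 1 one_pos
    refine ⟨j, le_antisymm (le_of_forall_pos_lt_add fun ε hε => ?_) h1⟩
    obtain ⟨j', h1', h2'⟩ := hk (min ε 1) (lt_min hε one_pos)
    have : j' = j := hsep _ _ (abs_lt.2 ⟨by linarith, by linarith [min_le_right ε 1]⟩)
    rw [this] at h2'
    linarith [min_le_left ε 1]
  have hdown : ∀ i, ∃ j, c j = c i - 1 := by
    intro i
    have hk : ∀ ε : ℝ, 0 < ε → ∃ j, c j ≤ c i - 1 ∧ c i - 1 - ε < c j := by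
      intro ε hε
      obtain ⟨x, hx, hu⟩ := hex (c i - ε) (c i) (by linarith)
      obtain ⟨j, hj, -⟩ := hu
      refine ⟨j, ?_, by linarith [hj.2, hx.1]⟩
      by_contra hlt
      have : i = j := hsep i j (abs_lt.2 ⟨by linarith [hj.1, hx.2], by linarith⟩)
      linarith [hj.1, hx.2, congrArg c this]
    obtain ⟨j, h1, h2⟩ := hk 1 one_pos
    refine ⟨j, le_antisymm h1 (le_of_forall_pos_lt_add fun ε hε => ?_)⟩
    obtain ⟨j', h1', h2'⟩ := hk (min ε 1) (lt_min hε one_pos)
    have : j' = j := hsep _ _ (abs_lt.2 ⟨by linarith [min_le_right ε 1], by linarith⟩)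
    rw [this] at h2'
    linarith [min_le_left ε 1]
  obtain ⟨x₀, -, hx₀⟩ := hex 0 1 one_pos
  obtain ⟨i₀, -, -⟩ := hx₀
  have hall : ∀ z : ℤ, ∃ i, c i = c i₀ + z := by
    intro z
    induction z using Int.induction_on with
    | zero => exact ⟨i₀, by simp⟩
    | succ m hm =>
        obtain ⟨i, hi⟩ := hm
        obtain ⟨j, hj⟩ := hup i
        exact ⟨j, by rw [hj, hi]; push_cast; ring⟩
    | pred m hm =>
        obtain ⟨i, hi⟩ := hm
        obtain ⟨j, hj⟩ := hdown i
        exact ⟨j, by rw [hj, hi]; push_cast; ring⟩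
  refine ⟨c i₀, fun i => ⟨⌊c i - c i₀⌋, ?_⟩, fun z => ?_⟩
  · obtain ⟨j, hj⟩ := hall ⌊c i - c i₀⌋
    have h1 := Int.floor_le (c i - c i₀)
    have h2 := Int.lt_floor_add_one (c i - c i₀)
    exact (congrArg c (hsep i j (abs_lt.2 ⟨by linarith, by linarith⟩))).trans hj
  · obtain ⟨i, hi⟩ := hall z
    exact ⟨i, hi, fun j hj => hsep j i (by rw [hj, hi, sub_self, abs_zero]; exact one_pos)⟩

/-- A level set of a non-zero linear form is null. -/
theorem volume_level {n : ℕ} {w : Fin n → ℝ} (hw : w ≠ 0) (s : ℝ) :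
    volume {y : Fin n → ℝ | ∑ k, w k * y k = s} = 0 := by
  set L : (Fin n → ℝ) →ₗ[ℝ] ℝ :=
    { toFun := fun y => ∑ k, w k * y k
      map_add' := fun a b => by simp [mul_add, Finset.sum_add_distrib]
      map_smul' := fun a b => by simp [Finset.mul_sum, mul_left_comm] } with hL
  obtain ⟨k, hk⟩ : ∃ k, w k ≠ 0 := Function.ne_iff.1 hw
  have hLk : L (Pi.single k (s / w k)) = s := by
    have : ∑ j, w j * Pi.single (M := fun _ : Fin n => ℝ) k (s / w k) j = w k * (s / w k) := by
      rw [Finset.sum_eq_single k] <;> simp +contextual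
    exact this.trans (by field_simp)
  have hne : LinearMap.ker L ≠ ⊤ := fun h => hk (by
    have h1 := LinearMap.ker_eq_top.1 h
    have h2 : L (Pi.single k 1) = w k := by
      have : ∑ j, w j * Pi.single (M := fun _ : Fin n => ℝ) k 1 j = w k * 1 := by
        rw [Finset.sum_eq_single k] <;> simp +contextual
      exact this.trans (mul_one _)
    rw [← h2, h1]; rfl)
  have e : {y : Fin n → ℝ | ∑ k, w k * y k = s} =
      (fun y => y + -Pi.single k (s / w k)) ⁻¹' (LinearMap.ker L : Set (Fin n → ℝ)) := by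
    ext y
    simp only [mem_ofPred_eq, mem_preimage, SetLike.mem_coe, LinearMap.mem_ker, map_add, map_neg,
      hLk]
    exact ⟨fun h => by rw [show L y = s from h]; ring, fun h => show L y = s by linarith⟩
  rw [e, measure_preimage_add_right]
  exact Measure.addHaar_submodule _ _ hne

end Vale.Agent.P043.R3
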